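import Vale.Agent.Lib.P031.Defs

namespace Vale.Agent.Lib.P031

open Filter Topology

/-- The set of totient values up to `x`. -/
def totSet (x : ℝ) : Set ℕ := {v : ℕ | (v : ℝ) ≤ x ∧ ∃ n : ℕ, 0 < n ∧ Nat.totient n = v}

theorem totientValueCount_eq (x : ℝ) : totientValueCount x = (totSet x).ncard := rfl

theorem totSet_subset_Icc (x : ℝ) : totSet x ⊆ (Finset.Icc 1 ⌊x⌋₊ : Finset ℕ) := by
  intro v hv
  obtain ⟨hvx, n, hn, rfl⟩ := hv
  simp only [Finset.coe_Icc, Set.mem_Icc]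
  refine ⟨Nat.totient_pos.2 hn, Nat.le_floor hvx⟩

theorem totSet_finite (x : ℝ) : (totSet x).Finite :=
  (Finset.finite_toSet _).subset (totSet_subset_Icc x)

theorem totSet_mono {x y : ℝ} (h : x ≤ y) : totSet x ⊆ totSet y := by
  intro v hv
  exact ⟨hv.1.trans h, hv.2⟩

theorem V_mono {x y : ℝ} (h : x ≤ y) : totientValueCount x ≤ totientValueCount y :=
  Set.ncard_le_ncard (totSet_mono h) (totSet_finite y)

theorem V_le_floor (x : ℝ) : totientValueCount x ≤ ⌊x⌋₊ := by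
  have h := Set.ncard_le_ncard (totSet_subset_Icc x) (Finset.finite_toSet _)
  rw [Set.ncard_coe_finset, Nat.card_Icc] at h
  simpa [totientValueCount_eq] using h

theorem V_le (x : ℝ) (hx : 0 ≤ x) : (totientValueCount x : ℝ) ≤ x :=
  (Nat.cast_le.2 (V_le_floor x)).trans (Nat.floor_le hx)

theorem V_pos {x : ℝ} (hx : 1 ≤ x) : 0 < totientValueCount x := by
  rw [totientValueCount_eq, Set.ncard_pos (totSet_finite x)]
  exact ⟨1, by simpa using hx, 1, one_pos, by simp⟩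

theorem V_cast_pos {x : ℝ} (hx : 1 ≤ x) : (0 : ℝ) < totientValueCount x :=
  Nat.cast_pos.2 (V_pos hx)

/-- Unit jumps: moving the argument by at most one creates at most one new value. -/
theorem V_le_add_one {x y : ℝ} (hx : 0 ≤ x) (hxy : y ≤ x + 1) :
    totientValueCount y ≤ totientValueCount x + 1 := by
  have hsub : totSet y ⊆ insert (⌊x⌋₊ + 1) (totSet x) := by
    intro v hv
    obtain ⟨hvy, hn⟩ := hv
    by_cases hvx : (v : ℝ) ≤ x
    · exact Set.mem_insert_of_mem _ ⟨hvx, hn⟩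
    · left
      push Not at hvx
      have h1 : ⌊x⌋₊ < v := (Nat.floor_lt hx).2 hvx
      have h2 : v ≤ ⌊x + 1⌋₊ := Nat.le_floor (hvy.trans hxy)
      rw [Nat.floor_add_one hx] at h2
      omega
  calc totientValueCount y = (totSet y).ncard := rfl
    _ ≤ (insert (⌊x⌋₊ + 1) (totSet x)).ncard :=
        Set.ncard_le_ncard hsub ((totSet_finite x).insert _)
    _ ≤ (totSet x).ncard + 1 := Set.ncard_insert_le _ _
    _ = totientValueCount x + 1 := rfl

/-- `V(x) ≥ π(⌊x⌋)`, since `p - 1 = φ(p)` for primes `p`. -/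
theorem primeCounting_le_V (x : ℝ) (hx : 0 ≤ x) :
    Nat.primeCounting ⌊x⌋₊ ≤ totientValueCount x := by
  classical
  have hcard : Nat.primeCounting ⌊x⌋₊ = (Nat.primesLE ⌊x⌋₊).card := by
    simp [Nat.primesLE, Nat.primeCounting, Nat.primeCounting', Nat.count_eq_card_filter_range,
      Nat.primesBelow]
  rw [hcard, totientValueCount_eq, ← Set.ncard_coe_finset]
  have himg : ((fun p : ℕ => p - 1) '' (Nat.primesLE ⌊x⌋₊ : Set ℕ)) ⊆ totSet x := by
    rintro _ ⟨p, hp, rfl⟩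
    have hp' := Nat.mem_primesLE.1 (Finset.mem_coe.1 hp)
    refine ⟨?_, p, hp'.2.pos, Nat.totient_prime hp'.2⟩
    have : ((p - 1 : ℕ) : ℝ) ≤ (⌊x⌋₊ : ℝ) := Nat.cast_le.2 ((Nat.sub_le _ _).trans hp'.1)
    exact this.trans (Nat.floor_le hx)
  have hinj : Set.InjOn (fun p : ℕ => p - 1) (Nat.primesLE ⌊x⌋₊ : Set ℕ) := by
    intro p hp q hq hpq
    have hp' := (Nat.mem_primesLE.1 (Finset.mem_coe.1 hp)).2.pos
    have hq' := (Nat.mem_primesLE.1 (Finset.mem_coe.1 hq)).2.pos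
    simp only at hpq
    omega
  calc (Nat.primesLE ⌊x⌋₊ : Set ℕ).ncard
      = ((fun p : ℕ => p - 1) '' (Nat.primesLE ⌊x⌋₊ : Set ℕ)).ncard :=
        hinj.ncard_image.symm
    _ ≤ (totSet x).ncard := Set.ncard_le_ncard himg (totSet_finite x)

end Vale.Agent.Lib.P031
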