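import Mathlib

namespace Vale.Agent.Lib.P031

/-- `totientValueCount x` is `V(x)`: the number of distinct values `v ≤ x` taken by
Euler's totient function `φ(n)` on the positive integers `n ≥ 1`. -/
noncomputable def totientValueCount (x : ℝ) : ℕ :=
  Set.ncard {v : ℕ | (v : ℝ) ≤ x ∧ ∃ n : ℕ, 0 < n ∧ Nat.totient n = v}

end Vale.Agent.Lib.P031
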