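import Vale.Agent.Lib.P031.Ratio

namespace Vale.Agent.Lib.P031

open Filter Topology

/-- `RatioLim g` : the ratio `V(g x)/V(x)` tends to `g` as `x → ∞`. -/
def RatioLim (g : ℝ) : Prop :=
  Tendsto (fun x : ℝ => (totientValueCount (g * x) : ℝ) / totientValueCount x) atTop (𝓝 g)

/-- If `V(cx)/V(x)` has a limit (`c > 1`), the limit is `c`. -/
theorem ratio_limit_unique {c L : ℝ} (hc : 1 < c)
    (h : Tendsto (fun x : ℝ => (totientValueCount (c * x) : ℝ) / totientValueCount x)
      atTop (𝓝 L)) : L = c := by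
  by_contra hne
  rcases lt_or_gt_of_ne hne with hlt | hgt
  · have hev := h.eventually (gt_mem_nhds (show L < (L + c) / 2 by linarith))
    obtain ⟨X, hX⟩ := eventually_atTop.1 hev
    obtain ⟨x, hxX, hx1, hx⟩ := exists_le_ratio hc (show (L + c) / 2 < c by linarith) X
    have h1 := hX x hxX
    have hD := V_cast_pos hx1
    rw [div_lt_iff₀ hD] at h1
    linarith
  · have hev := h.eventually (lt_mem_nhds (show (L + c) / 2 < L by linarith))
    obtain ⟨X, hX⟩ := eventually_atTop.1 hev
    obtain ⟨x, hxX, hx1, hx⟩ := exists_ratio_le hc (show c < (L + c) / 2 by linarith) X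
    have h1 := hX x hxX
    have hD := V_cast_pos hx1
    rw [lt_div_iff₀ hD] at h1
    linarith

theorem ratioLim_one : RatioLim 1 := by
  unfold RatioLim
  apply tendsto_const_nhds.congr'
  filter_upwards [eventually_ge_atTop 1] with x hx
  rw [one_mul, div_self (V_cast_pos hx).ne']

theorem ratioLim_mul {g h : ℝ} (hh0 : 0 < h) (hg : RatioLim g)
    (hh : RatioLim h) : RatioLim (g * h) := by
  unfold RatioLim at *
  have hcomp : Tendsto (fun x : ℝ => (totientValueCount (g * (h * x)) : ℝ)
      / totientValueCount (h * x)) atTop (𝓝 g) :=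
    hg.comp (tendsto_id.const_mul_atTop hh0)
  have hprod := hcomp.mul hh
  apply hprod.congr'
  filter_upwards [eventually_ge_atTop (1 / h), eventually_ge_atTop 1] with x hx hx1
  have hhx : 1 ≤ h * x := by
    rw [div_le_iff₀ hh0] at hx
    linarith
  have h1 := (V_cast_pos hhx).ne'
  have h2 := (V_cast_pos hx1).ne'
  rw [mul_assoc]
  field_simp

theorem ratioLim_inv {g : ℝ} (hg0 : 0 < g) (hg : RatioLim g) : RatioLim g⁻¹ := by
  unfold RatioLim at *
  have hcomp : Tendsto (fun x : ℝ => (totientValueCount (g * (g⁻¹ * x)) : ℝ)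
      / totientValueCount (g⁻¹ * x)) atTop (𝓝 g) :=
    hg.comp (tendsto_id.const_mul_atTop (inv_pos.2 hg0))
  have hinv := hcomp.inv₀ hg0.ne'
  apply hinv.congr'
  filter_upwards with x
  rw [← mul_assoc, mul_inv_cancel₀ hg0.ne', one_mul, inv_div]

/-- The additive subgroup of all `t` with `V(e^t x)/V(x) → e^t`. -/
def ratioLogSubgroup : AddSubgroup ℝ where
  carrier := {t | RatioLim (Real.exp t)}
  zero_mem' := by
    simpa using ratioLim_one
  add_mem' := by
    intro s t hs ht
    simp only [Set.mem_ofPred_eq] at *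
    rw [Real.exp_add]
    exact ratioLim_mul (Real.exp_pos _) hs ht
  neg_mem' := by
    intro t ht
    simp only [Set.mem_ofPred_eq] at *
    rw [Real.exp_neg]
    exact ratioLim_inv (Real.exp_pos _) ht

theorem mem_ratioLogSubgroup {t : ℝ} : t ∈ ratioLogSubgroup ↔ RatioLim (Real.exp t) := Iff.rfl

theorem ratioLim_of_dense (hd : Dense (ratioLogSubgroup : Set ℝ)) {c : ℝ} (hc : 0 < c) :
    RatioLim c := by
  unfold RatioLim
  rw [tendsto_order]
  constructor
  · intro c' hc'
    set c'' := max c' (c / 2) with hc''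
    have hc''c : c'' < c := max_lt hc' (by linarith)
    have hc''0 : 0 < c'' := lt_of_lt_of_le (by positivity) (le_max_right _ _)
    have hlog : Real.log c'' < Real.log c := Real.log_lt_log hc''0 hc''c
    obtain ⟨t, htH, ht⟩ := hd.exists_mem_open isOpen_Ioo (Set.nonempty_Ioo.2 hlog)
    have hg1 : c'' < Real.exp t := (Real.log_lt_iff_lt_exp hc''0).1 ht.1
    have hg2 : Real.exp t < c := (Real.lt_log_iff_exp_lt hc).1 ht.2
    have hev := (mem_ratioLogSubgroup.1 htH).eventually (lt_mem_nhds hg1)
    filter_upwards [hev, eventually_ge_atTop 0] with x hx hx0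
    calc c' ≤ c'' := le_max_left _ _
      _ < (totientValueCount (Real.exp t * x) : ℝ) / totientValueCount x := hx
      _ ≤ (totientValueCount (c * x) : ℝ) / totientValueCount x := by
          apply div_le_div_of_nonneg_right _ (Nat.cast_nonneg _)
          exact_mod_cast V_mono (mul_le_mul_of_nonneg_right hg2.le hx0)
  · intro c' hc'
    have hlog : Real.log c < Real.log c' := Real.log_lt_log hc hc'
    obtain ⟨t, htH, ht⟩ := hd.exists_mem_open isOpen_Ioo (Set.nonempty_Ioo.2 hlog)
    have hg1 : c < Real.exp t := (Real.log_lt_iff_lt_exp hc).1 ht.1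
    have hg2 : Real.exp t < c' := (Real.lt_log_iff_exp_lt (hc.trans hc')).1 ht.2
    have hev := (mem_ratioLogSubgroup.1 htH).eventually (gt_mem_nhds hg2)
    filter_upwards [hev, eventually_ge_atTop 0] with x hx hx0
    calc (totientValueCount (c * x) : ℝ) / totientValueCount x
        ≤ (totientValueCount (Real.exp t * x) : ℝ) / totientValueCount x := by
          apply div_le_div_of_nonneg_right _ (Nat.cast_nonneg _)
          exact_mod_cast V_mono (mul_le_mul_of_nonneg_right hg1.le hx0)
      _ < c' := hx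

/-- Existence of the two limits for multiplicatively independent `a, b` gives `V(cx)/V(x) → c`
for every `c > 0`. -/
theorem ratioLim_of_two {a b : ℝ} (ha : 1 < a) (hb : 1 < b)
    (hirr : Irrational (Real.log a / Real.log b))
    (hLa : ∃ La : ℝ, Tendsto (fun x : ℝ => (totientValueCount (a * x) : ℝ)
      / totientValueCount x) atTop (𝓝 La))
    (hLb : ∃ Lb : ℝ, Tendsto (fun x : ℝ => (totientValueCount (b * x) : ℝ)
      / totientValueCount x) atTop (𝓝 Lb)) {c : ℝ} (hc : 0 < c) : RatioLim c := by
  obtain ⟨La, hLa⟩ := hLa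
  obtain ⟨Lb, hLb⟩ := hLb
  have hLa' : RatioLim a := by
    have := ratio_limit_unique ha hLa
    subst this
    exact hLa
  have hLb' : RatioLim b := by
    have := ratio_limit_unique hb hLb
    subst this
    exact hLb
  have ha0 : 0 < a := by linarith
  have hb0 : 0 < b := by linarith
  have hamem : Real.log a ∈ ratioLogSubgroup := by
    rw [mem_ratioLogSubgroup, Real.exp_log ha0]
    exact hLa'
  have hbmem : Real.log b ∈ ratioLogSubgroup := by
    rw [mem_ratioLogSubgroup, Real.exp_log hb0]
    exact hLb'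
  have hle : AddSubgroup.closure {Real.log a, Real.log b} ≤ ratioLogSubgroup := by
    rw [AddSubgroup.closure_le]
    intro t ht
    rcases ht with rfl | rfl
    · exact hamem
    · exact hbmem
  have hd : Dense (ratioLogSubgroup : Set ℝ) :=
    (dense_addSubgroupClosure_pair_iff.2 hirr).mono hle
  exact ratioLim_of_dense hd hc

theorem irrational_log_two_div_log_three : Irrational (Real.log 2 / Real.log 3) := by
  have hlog2 : 0 < Real.log 2 := Real.log_pos one_lt_two
  have hlog3 : 0 < Real.log 3 := Real.log_pos (by norm_num)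
  -- no natural numbers `m ≥ 1`, `n` with `m log 2 = n log 3`
  have key : ∀ m n : ℕ, 0 < m → (m : ℝ) * Real.log 2 ≠ n * Real.log 3 := by
    intro m n hm h
    rw [← Real.log_pow, ← Real.log_pow] at h
    have h2 : ((2 : ℝ) ^ m) = (3 : ℝ) ^ n :=
      Real.log_injOn_pos (Set.mem_Ioi.2 (by positivity)) (Set.mem_Ioi.2 (by positivity)) h
    have h3 : (2 : ℕ) ^ m = 3 ^ n := by exact_mod_cast h2
    have h4 : 2 ∣ 3 ^ n := by
      rw [← h3]
      exact dvd_pow_self 2 hm.ne'
    have h5 := Nat.Prime.dvd_of_dvd_pow Nat.prime_two h4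
    omega
  intro ⟨q, hq⟩
  have hqpos : (0 : ℝ) < q := by
    rw [hq]
    positivity
  have hqpos' : 0 < q := by exact_mod_cast hqpos
  have hnum : 0 < q.num := Rat.num_pos.2 hqpos'
  have hq' : (q : ℝ) = (q.num : ℝ) / (q.den : ℝ) := by
    exact_mod_cast (Rat.num_div_den q).symm
  rw [hq', eq_div_iff hlog3.ne', div_mul_eq_mul_div, div_eq_iff (by positivity)] at hq
  have hnat : (q.num : ℝ) = ((q.num.toNat : ℕ) : ℝ) := by
    have : (q.num.toNat : ℤ) = q.num := Int.toNat_of_nonneg hnum.le
    exact_mod_cast this.symm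
  rw [hnat] at hq
  exact key q.den q.num.toNat q.den_pos (by linarith)

end Vale.Agent.Lib.P031
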