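import Vale.Agent.Lib.P031.Basic

namespace Vale.Agent.Lib.P031

open Filter Topology

/-- Upper sandwich: arbitrarily far out the ratio `V(cx)/V(x)` is at most `c' > c`. -/
theorem exists_ratio_le {c c' : ℝ} (hc : 1 < c) (hcc' : c < c') (X : ℝ) :
    ∃ x, X ≤ x ∧ 1 ≤ x ∧ (totientValueCount (c * x) : ℝ) ≤ c' * totientValueCount x := by
  by_contra hcon
  push Not at hcon
  set X0 := max X 1 with hX0
  have hX0_1 : (1 : ℝ) ≤ X0 := le_max_right _ _
  have hX0_X : X ≤ X0 := le_max_left _ _
  have hc0 : 0 < c := by linarith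
  have hc'0 : 0 < c' := by linarith
  have hpow_ge : ∀ k : ℕ, X0 ≤ c ^ k * X0 :=
    fun k => le_mul_of_one_le_left (by linarith) (one_le_pow₀ hc.le)
  have key : ∀ k : ℕ, c' ^ k ≤ (totientValueCount (c ^ k * X0) : ℝ) := by
    intro k
    induction k with
    | zero =>
      have : (1 : ℝ) ≤ totientValueCount X0 := by exact_mod_cast V_pos hX0_1
      simpa using this
    | succ k ih =>
      have h := hcon (c ^ k * X0) (hX0_X.trans (hpow_ge k)) (hX0_1.trans (hpow_ge k))
      calc c' ^ (k + 1) = c' * c' ^ k := by ring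
        _ ≤ c' * totientValueCount (c ^ k * X0) := by gcongr
        _ ≤ totientValueCount (c * (c ^ k * X0)) := h.le
        _ = totientValueCount (c ^ (k + 1) * X0) := by ring_nf
  have key2 : ∀ k : ℕ, (c' / c) ^ k ≤ X0 := by
    intro k
    have h1 := key k
    have h2 := V_le (c ^ k * X0) (by positivity)
    rw [div_pow, div_le_iff₀ (by positivity)]
    linarith
  obtain ⟨k, hk⟩ := pow_unbounded_of_one_lt X0 ((one_lt_div hc0).2 hcc')
  exact absurd (key2 k) (not_le.2 hk)

/-- Lower sandwich: arbitrarily far out the ratio `V(cx)/V(x)` is at least `c' < c`. -/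
theorem exists_le_ratio {c c' : ℝ} (hc : 1 < c) (hcc' : c' < c) (X : ℝ) :
    ∃ x, X ≤ x ∧ 1 ≤ x ∧ c' * (totientValueCount x : ℝ) ≤ totientValueCount (c * x) := by
  by_contra hcon
  push Not at hcon
  set X0 := max X 2 with hX0
  have hX0_2 : (2 : ℝ) ≤ X0 := le_max_right _ _
  have hX0_X : X ≤ X0 := le_max_left _ _
  have hX0pos : 0 < X0 := by linarith
  have hc0 : 0 < c := by linarith
  have hpow_ge : ∀ k : ℕ, X0 ≤ c ^ k * X0 :=
    fun k => le_mul_of_one_le_left (by linarith) (one_le_pow₀ hc.le)
  have hc'1 : 1 < c' := by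
    have h := hcon X0 hX0_X (by linarith)
    have hm : (totientValueCount X0 : ℝ) ≤ totientValueCount (c * X0) := by
      exact_mod_cast V_mono (le_mul_of_one_le_left (by linarith) hc.le)
    have hp := V_cast_pos (x := X0) (by linarith)
    by_contra hle
    push Not at hle
    nlinarith
  have hc'0 : 0 < c' := by linarith
  have key : ∀ k : ℕ, (totientValueCount (c ^ k * X0) : ℝ) ≤ c' ^ k * X0 := by
    intro k
    induction k with
    | zero => simpa using V_le X0 (by linarith)
    | succ k ih =>
      have h := hcon (c ^ k * X0) (hX0_X.trans (hpow_ge k)) (by linarith [hpow_ge k])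
      calc (totientValueCount (c ^ (k + 1) * X0) : ℝ)
          = totientValueCount (c * (c ^ k * X0)) := by ring_nf
        _ ≤ c' * totientValueCount (c ^ k * X0) := h.le
        _ ≤ c' * (c' ^ k * X0) := by gcongr
        _ = c' ^ (k + 1) * X0 := by ring
  set M := Real.log 2 + Real.log c + Real.log X0 with hM
  have hlog2 : 0 < Real.log 2 := Real.log_pos one_lt_two
  have hlogc : 0 < Real.log c := Real.log_pos hc
  have hlogX : 0 < Real.log X0 := Real.log_pos (by linarith)
  have hMpos : 0 < M := by positivity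
  have main : ∀ k : ℕ, (c / c') ^ k ≤ 4 * M / Real.log 2 * (k + 1) := by
    intro k
    set y := c ^ k * X0 with hy
    have hy2 : 2 ≤ y := hX0_2.trans (hpow_ge k)
    set n := ⌊y⌋₊ with hn
    have hn_le : (n : ℝ) ≤ y := Nat.floor_le (by linarith)
    have hn_ge : y - 1 < n := Nat.sub_one_lt_floor y
    have hn2 : 2 ≤ n := Nat.le_floor (by simpa using hy2)
    have hnR : (2 : ℝ) ≤ n := by exact_mod_cast hn2
    have hlogn : 0 < Real.log n := Real.log_pos (by linarith)
    have h1 := Chebyshev.pi_ge n
    have h2 : (Nat.primeCounting n : ℝ) ≤ totientValueCount y := by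
      exact_mod_cast primeCounting_le_V y (by linarith)
    have h3 := key k
    rw [div_le_iff₀ hlogn] at h1
    have hk : (0 : ℝ) ≤ k := Nat.cast_nonneg k
    have hlog_le : Real.log (n + 1) ≤ (k + 1) * M := by
      have h4 : Real.log (n + 1) ≤ Real.log (2 * y) :=
        Real.log_le_log (by positivity) (by linarith)
      have e : Real.log (2 * y) = Real.log 2 + k * Real.log c + Real.log X0 := by
        rw [hy, Real.log_mul (by norm_num) (by positivity),
          Real.log_mul (by positivity) (by linarith), Real.log_pow]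
        ring
      rw [e] at h4
      nlinarith
    have hlogn_le : Real.log n ≤ (k + 1) * M :=
      (Real.log_le_log (by linarith) (by linarith)).trans hlog_le
    have hc'k : 1 ≤ c' ^ k := one_le_pow₀ hc'1.le
    have hc'kX : 1 ≤ c' ^ k * X0 := by nlinarith
    have hkM : 0 < ((k : ℝ) + 1) * M := by positivity
    -- `n log 2 ≤ π(n) log n + log (n+1) ≤ c'^k X0 (k+1) M + (k+1) M`
    have h5 : (n : ℝ) * Real.log 2 ≤ c' ^ k * X0 * (((k : ℝ) + 1) * M) + ((k : ℝ) + 1) * M := by
      have h6 : (Nat.primeCounting n : ℝ) * Real.log n ≤ c' ^ k * X0 * (((k : ℝ) + 1) * M) := by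
        have h7 : (Nat.primeCounting n : ℝ) ≤ c' ^ k * X0 := h2.trans h3
        exact mul_le_mul h7 hlogn_le hlogn.le (by positivity)
      linarith
    have h8 : y / 2 * Real.log 2 ≤ 2 * (c' ^ k * X0) * (((k : ℝ) + 1) * M) := by
      have h9 : y / 2 ≤ n := by linarith
      have h10 : y / 2 * Real.log 2 ≤ n * Real.log 2 := by gcongr
      nlinarith
    have h11 : c ^ k * Real.log 2 ≤ 4 * c' ^ k * (((k : ℝ) + 1) * M) := by
      have h12 : (c ^ k * Real.log 2) * X0 ≤ (4 * c' ^ k * (((k : ℝ) + 1) * M)) * X0 := by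
        rw [hy] at h8
        nlinarith
      exact le_of_mul_le_mul_right h12 hX0pos
    rw [div_pow, div_le_iff₀ (by positivity)]
    have h13 : 4 * M / Real.log 2 * ((k : ℝ) + 1) * c' ^ k
        = (4 * c' ^ k * (((k : ℝ) + 1) * M)) / Real.log 2 := by
      field_simp
    rw [h13, le_div_iff₀ hlog2]
    exact h11
  have hρ : 1 < c / c' := (one_lt_div hc'0).2 hcc'
  set A := 4 * M / Real.log 2 with hA
  have hApos : 0 < A := by positivity
  have ht := tendsto_pow_const_div_const_pow_of_one_lt 1 hρ
  have hev := ht.eventually (gt_mem_nhds (show (0 : ℝ) < 1 / (2 * A) by positivity))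
  obtain ⟨N, hN, hN1⟩ := (hev.and (eventually_ge_atTop 1)).exists
  have hN1' : (1 : ℝ) ≤ N := by exact_mod_cast hN1
  have hρN : 0 < (c / c') ^ N := by positivity
  rw [pow_one, div_lt_div_iff₀ hρN (by positivity)] at hN
  have := main N
  nlinarith

/-- `V(x) → ∞`: beyond some point `V(x) ≥ B`. -/
theorem exists_V_ge (B : ℝ) : ∃ X0 : ℝ, ∀ x, X0 ≤ x → B ≤ totientValueCount x := by
  have h := Nat.tendsto_primeCounting
  obtain ⟨n0, hn0⟩ := (Filter.tendsto_atTop.1 h ⌈B⌉₊).exists_forall_of_atTop
  refine ⟨max (n0 : ℝ) 0, fun x hx => ?_⟩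
  have hx0 : 0 ≤ x := (le_max_right _ _).trans hx
  have hxn : n0 ≤ ⌊x⌋₊ := Nat.le_floor ((le_max_left _ _).trans hx)
  have h1 := hn0 _ hxn
  have h2 := primeCounting_le_V x hx0
  calc B ≤ (⌈B⌉₊ : ℝ) := Nat.le_ceil B
    _ ≤ (totientValueCount x : ℝ) := by exact_mod_cast h1.trans h2

/-- For every `c > 1` the ratio `V(cx)/V(x)` comes within `ε` of `c` arbitrarily far out. -/
theorem exists_ratio_near {c : ℝ} (hc : 1 < c) {ε : ℝ} (hε : 0 < ε) (X : ℝ) :
    ∃ x, X ≤ x ∧ 1 ≤ x ∧
      |(totientValueCount (c * x) : ℝ) / totientValueCount x - c| < ε := by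
  have hc0 : 0 < c := by linarith
  obtain ⟨X0, hX0⟩ := exists_V_ge (2 / ε)
  set X1 := max (max X 1) X0 with hX1
  have hX1X : X ≤ X1 := (le_max_left _ _).trans (le_max_left _ _)
  have hX11 : (1 : ℝ) ≤ X1 := (le_max_right _ _).trans (le_max_left _ _)
  have hX10 : X0 ≤ X1 := le_max_right _ _
  obtain ⟨x1, hx1X, hx11, hx1U⟩ := exists_ratio_le hc (show c < c + ε / 2 by linarith) X1
  by_cases hcase : (c - ε / 2) * (totientValueCount x1 : ℝ) ≤ totientValueCount (c * x1)
  · refine ⟨x1, hX1X.trans hx1X, hx11, ?_⟩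
    have hD := V_cast_pos hx11
    have h1 : (totientValueCount (c * x1) : ℝ) / totientValueCount x1 ≤ c + ε / 2 :=
      (div_le_iff₀ hD).2 hx1U
    have h2 : c - ε / 2 ≤ (totientValueCount (c * x1) : ℝ) / totientValueCount x1 :=
      (le_div_iff₀ hD).2 hcase
    rw [abs_lt]
    constructor <;> linarith
  · push Not at hcase
    obtain ⟨x2, hx2x1, hx21, hx2L⟩ := exists_le_ratio hc (show c - ε / 2 < c by linarith) x1
    by_contra hno
    push Not at hno
    set N : ℕ := ⌈(x2 - x1) * c⌉₊ + 1 with hN
    have hNpos : (0 : ℝ) < N := by positivity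
    set h := (x2 - x1) / N with hh
    have hh0 : 0 ≤ h := div_nonneg (by linarith) hNpos.le
    have hhc : c * h ≤ 1 := by
      rw [hh, ← mul_div_assoc, div_le_one hNpos]
      have : (x2 - x1) * c ≤ ⌈(x2 - x1) * c⌉₊ := Nat.le_ceil _
      have hN' : (N : ℝ) = (⌈(x2 - x1) * c⌉₊ : ℝ) + 1 := by rw [hN]; push_cast; ring
      linarith
    have hz_ge : ∀ j : ℕ, x1 ≤ x1 + j * h := fun j => by
      have : 0 ≤ (j : ℝ) * h := by positivity
      linarith
    have hind : ∀ j : ℕ, (totientValueCount (c * (x1 + j * h)) : ℝ)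
        < (c - ε / 2) * totientValueCount (x1 + j * h) := by
      intro j
      induction j with
      | zero => simpa using hcase
      | succ j ih =>
        set z := x1 + j * h with hz
        have hzz : x1 + ((j + 1 : ℕ) : ℝ) * h = z + h := by rw [hz]; push_cast; ring
        rw [hzz]
        have hzx1 : x1 ≤ z := hz_ge j
        have hz1 : (1 : ℝ) ≤ z := hx11.trans hzx1
        have hzh1 : (1 : ℝ) ≤ z + h := by linarith
        have hD : (2 / ε : ℝ) ≤ totientValueCount z := hX0 z (hX10.trans (hx1X.trans hzx1))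
        have hD0 : (0 : ℝ) < totientValueCount z := V_cast_pos hz1
        have hD' : (totientValueCount z : ℝ) ≤ totientValueCount (z + h) := by
          exact_mod_cast V_mono (show z ≤ z + h by linarith)
        have hD'0 : (0 : ℝ) < totientValueCount (z + h) := V_cast_pos hzh1
        have hNn : (totientValueCount (c * (z + h)) : ℝ) ≤ totientValueCount (c * z) + 1 := by
          have := V_le_add_one (x := c * z) (y := c * (z + h)) (by positivity) (by linarith)
          exact_mod_cast this
        have hεD : 1 ≤ ε / 2 * (totientValueCount z : ℝ) := by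
          rw [div_le_iff₀ hε] at hD
          linarith
        by_contra hnot
        push Not at hnot
        have hgood := hno (z + h) (by linarith [hX1X, hx1X, hzx1]) hzh1
        have h1 : (totientValueCount (c * (z + h)) : ℝ) / totientValueCount (z + h) < c := by
          rw [div_lt_iff₀ hD'0]
          nlinarith
        have h2 : c - ε / 2 ≤ (totientValueCount (c * (z + h)) : ℝ) / totientValueCount (z + h) :=
          (le_div_iff₀ hD'0).2 hnot
        rw [le_abs] at hgood
        rcases hgood with hg | hg <;> linarith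
    have hfin := hind N
    have hzN : x1 + (N : ℝ) * h = x2 := by
      rw [hh]
      field_simp
      ring
    rw [hzN] at hfin
    linarith

end Vale.Agent.Lib.P031
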